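/-
helper2 — S0466 squad (coordinator helper62), leaf EXT2c (hedge copy).
`false_of_two_regular`: a point of `QQ`, positive on `F`, in a graph with all degrees two,
with bijective star map and without nontrivial tight odd set: impossible.
Statement copied from `Crest/Agent/Helper62/S0466/Blueprint.lean`.
-/
import Crest.Agent.Helper62.S0466.Defs

set_option autoImplicit false

namespace Crest.Agent.Helper2.S0466

open Crest.Agent.Helper62.S0466

variable {V E : Type} [DecidableEq V] [DecidableEq E]

omit [DecidableEq E] in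
theorem mem_star' {ends : E → V × V} {F : Finset E} {w : V} {e : E} :
    e ∈ star ends F w ↔ e ∈ F ∧ ((ends e).1 = w ∨ (ends e).2 = w) := by
  simp [Crest.Agent.Helper62.S0466.star]

omit [DecidableEq E] in
theorem mem_cut' {ends : E → V × V} {F : Finset E} {U : Finset V} {e : E} :
    e ∈ cut ends F U ↔ e ∈ F ∧ (((ends e).1 ∈ U ∧ (ends e).2 ∉ U) ∨
      ((ends e).1 ∉ U ∧ (ends e).2 ∈ U)) := by
  simp [Crest.Agent.Helper62.S0466.cut]

omit [DecidableEq E] in
/-- Double counting: the star sums over a vertex set `U` count every cut edge once and every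
edge inside `U` twice. -/
theorem sum_star_eq {ends : E → V × V} {A : Finset V} {F : Finset E} (hWF : WF ends A F)
    (y : E → ℝ) (U : Finset V) :
    ∑ s ∈ U, ∑ g ∈ star ends F s, y g
      = ∑ g ∈ cut ends F U, y g
        + 2 * ∑ g ∈ F.filter (fun g => (ends g).1 ∈ U ∧ (ends g).2 ∈ U), y g := by
  unfold Crest.Agent.Helper62.S0466.star Crest.Agent.Helper62.S0466.cut
  simp only [Finset.sum_filter]
  rw [Finset.sum_comm, Finset.mul_sum, ← Finset.sum_add_distrib]
  apply Finset.sum_congr rfl
  intro g hg
  have hne := (hWF g hg).2.2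
  have h1 : ∑ s ∈ U, (if (ends g).1 = s ∨ (ends g).2 = s then y g else 0)
      = (if (ends g).1 ∈ U then y g else 0) + (if (ends g).2 ∈ U then y g else 0) := by
    rw [← Finset.sum_ite_eq U (ends g).1 (fun _ => y g),
      ← Finset.sum_ite_eq U (ends g).2 (fun _ => y g), ← Finset.sum_add_distrib]
    apply Finset.sum_congr rfl
    intro s _
    by_cases h1 : (ends g).1 = s
    · have h2 : ¬ (ends g).2 = s := fun h2 => hne (h1.trans h2.symm)
      simp [h1, h2]
    · by_cases h2 : (ends g).2 = s
      · simp [h1, h2]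
      · simp [h1, h2]
  rw [h1]
  by_cases ha : (ends g).1 ∈ U <;> by_cases hb : (ends g).2 ∈ U <;> simp [ha, hb]
  ring

/-- A point of `QQ`, positive on `F`, in a graph with all degrees two, with bijective star map
and without nontrivial tight odd set: impossible. -/
theorem false_of_two_regular {ends : E → V × V} {A : Finset V} {F : Finset E} (hWF : WF ends A F)
    {x : E → ℝ} (hx : x ∈ QQ ends A F) (hpos : ∀ e ∈ F, 0 < x e) (hA : A.Nonempty)
    (hdeg2 : ∀ w ∈ A, (star ends F w).card = 2)
    (hinj : ∀ h : E → ℝ, (∀ e, e ∉ F → h e = 0) →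
      (∀ w ∈ A, ∑ e ∈ star ends F w, h e = 0) → h = 0)
    (hsurj : ∀ y : V → ℝ, ∃ h : E → ℝ, (∀ e, e ∉ F → h e = 0) ∧
      ∀ w ∈ A, ∑ e ∈ star ends F w, h e = y w)
    (hnt : ∀ S : Finset V, S ⊆ A → Odd S.card → 3 ≤ S.card → S.card + 3 ≤ A.card →
      ∑ e ∈ cut ends F S, x e ≠ 1) :
    False := by
  obtain ⟨hxF, hx0, hxstar, hxcut⟩ := hx
  obtain ⟨v, hv⟩ := hA
  obtain ⟨e, f, hef, hstar⟩ := Finset.card_eq_two.mp (hdeg2 v hv)
  have he : e ∈ star ends F v := by rw [hstar]; simp
  have hf : f ∈ star ends F v := by rw [hstar]; simp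
  obtain ⟨heF, hev⟩ := mem_star'.mp he
  obtain ⟨hfF, hfv⟩ := mem_star'.mp hf
  -- every edge at `v` is `e` or `f`
  have hatv : ∀ g ∈ F, ((ends g).1 = v ∨ (ends g).2 = v) → g = e ∨ g = f := by
    intro g hg hgv
    have : g ∈ star ends F v := mem_star'.mpr ⟨hg, hgv⟩
    rw [hstar] at this
    simpa using this
  -- the other ends
  obtain ⟨u, huA, huv, heu⟩ : ∃ u, u ∈ A ∧ u ≠ v ∧
      (((ends e).1 = v ∧ (ends e).2 = u) ∨ ((ends e).1 = u ∧ (ends e).2 = v)) := by
    obtain ⟨h1, h2, h3⟩ := hWF e heF
    rcases hev with h | h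
    · exact ⟨(ends e).2, h2, fun h' => h3 (h.trans h'.symm), Or.inl ⟨h, rfl⟩⟩
    · exact ⟨(ends e).1, h1, fun h' => h3 (h'.trans h.symm), Or.inr ⟨rfl, h⟩⟩
  obtain ⟨w, hwA, hwv, hfw⟩ : ∃ w, w ∈ A ∧ w ≠ v ∧
      (((ends f).1 = v ∧ (ends f).2 = w) ∨ ((ends f).1 = w ∧ (ends f).2 = v)) := by
    obtain ⟨h1, h2, h3⟩ := hWF f hfF
    rcases hfv with h | h
    · exact ⟨(ends f).2, h2, fun h' => h3 (h.trans h'.symm), Or.inl ⟨h, rfl⟩⟩
    · exact ⟨(ends f).1, h1, fun h' => h3 (h'.trans h.symm), Or.inr ⟨rfl, h⟩⟩
  -- which vertices see `e`, `f`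
  have hestar : ∀ z, e ∈ star ends F z ↔ (z = v ∨ z = u) := by
    intro z
    rw [mem_star']
    constructor
    · rintro ⟨_, hz | hz⟩
      · rcases heu with ⟨h1, _⟩ | ⟨h1, _⟩
        · left; rw [← hz, h1]
        · right; rw [← hz, h1]
      · rcases heu with ⟨_, h2⟩ | ⟨_, h2⟩
        · right; rw [← hz, h2]
        · left; rw [← hz, h2]
    · rintro (rfl | rfl)
      · exact ⟨heF, hev⟩
      · refine ⟨heF, ?_⟩
        rcases heu with ⟨_, h2⟩ | ⟨h1, _⟩
        · right; exact h2
        · left; exact h1
  have hfstar : ∀ z, f ∈ star ends F z ↔ (z = v ∨ z = w) := by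
    intro z
    rw [mem_star']
    constructor
    · rintro ⟨_, hz | hz⟩
      · rcases hfw with ⟨h1, _⟩ | ⟨h1, _⟩
        · left; rw [← hz, h1]
        · right; rw [← hz, h1]
      · rcases hfw with ⟨_, h2⟩ | ⟨_, h2⟩
        · right; rw [← hz, h2]
        · left; rw [← hz, h2]
    · rintro (rfl | rfl)
      · exact ⟨hfF, hfv⟩
      · refine ⟨hfF, ?_⟩
        rcases hfw with ⟨_, h2⟩ | ⟨h1, _⟩
        · right; exact h2
        · left; exact h1
  by_cases huw : u = w
  · -- parallel edges: `ind {e} - ind {f}` has all star sums zero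
    subst huw
    have hh := hinj (fun g => (if g = e then (1 : ℝ) else 0) - (if g = f then (1 : ℝ) else 0))
      (by
        intro g hg
        have h1 : g ≠ e := fun h => hg (h ▸ heF)
        have h2 : g ≠ f := fun h => hg (h ▸ hfF)
        simp [h1, h2])
      (by
        intro z _
        rw [Finset.sum_sub_distrib, Finset.sum_ite_eq', Finset.sum_ite_eq']
        by_cases hz : z = v ∨ z = u
        · rw [if_pos ((hestar z).mpr hz), if_pos ((hfstar z).mpr hz)]; ring
        · rw [if_neg (fun h => hz ((hestar z).mp h)), if_neg (fun h => hz ((hfstar z).mp h))]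
          ring)
    have := congrFun hh e
    simp [hef] at this
  · -- the triangle-free case: `S = {u, v, w}` is a tight odd set
    have hvu : v ≠ u := fun h => huv h.symm
    have hvw : v ≠ w := fun h => hwv h.symm
    set S : Finset V := insert u (insert v {w}) with hS
    have hScard : S.card = 3 := by
      rw [hS, Finset.card_insert_of_notMem (by simp [huv, huw]),
        Finset.card_insert_of_notMem (by simp [hvw]), Finset.card_singleton]
    have hSA : S ⊆ A := by
      intro z hz
      rw [hS] at hz
      simp only [Finset.mem_insert, Finset.mem_singleton] at hz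
      rcases hz with rfl | rfl | rfl
      · exact huA
      · exact hv
      · exact hwA
    have huS : u ∈ S := by simp [hS]
    have hvS : v ∈ S := by simp [hS]
    have hwS : w ∈ S := by simp [hS]
    have hSodd : Odd S.card := by rw [hScard]; decide
    -- star sums over S
    have h3 : ∑ s ∈ S, ∑ g ∈ star ends F s, x g = 3 := by
      rw [Finset.sum_congr rfl (fun s hs => hxstar s (hSA hs))]
      simp [hScard]
    rw [sum_star_eq hWF x S] at h3
    set I : Finset E := F.filter (fun g => (ends g).1 ∈ S ∧ (ends g).2 ∈ S) with hI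
    have heI : e ∈ I := by
      rw [hI, Finset.mem_filter]
      refine ⟨heF, ?_⟩
      rcases heu with ⟨h1, h2⟩ | ⟨h1, h2⟩
      · rw [h1, h2]; exact ⟨hvS, huS⟩
      · rw [h1, h2]; exact ⟨huS, hvS⟩
    have hfI : f ∈ I := by
      rw [hI, Finset.mem_filter]
      refine ⟨hfF, ?_⟩
      rcases hfw with ⟨h1, h2⟩ | ⟨h1, h2⟩
      · rw [h1, h2]; exact ⟨hvS, hwS⟩
      · rw [h1, h2]; exact ⟨hwS, hvS⟩
    have hxef : x e + x f = 1 := by
      have := hxstar v hv
      rw [hstar, Finset.sum_pair hef] at this
      exact this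
    have hIge : x e + x f ≤ ∑ g ∈ I, x g := by
      rw [← Finset.sum_pair hef]
      apply Finset.sum_le_sum_of_subset_of_nonneg
      · intro g hg
        simp only [Finset.mem_insert, Finset.mem_singleton] at hg
        rcases hg with rfl | rfl
        · exact heI
        · exact hfI
      · intro g _ _; exact hx0 g
    have hcutge := hxcut S hSA hSodd
    have hcut1 : ∑ g ∈ cut ends F S, x g = 1 := by linarith
    have hI1 : ∑ g ∈ I, x g = 1 := by linarith
    -- no further edge inside S
    have hIonly : ∀ g ∈ I, g = e ∨ g = f := by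
      intro g hg
      by_contra hne
      rw [not_or] at hne
      have hsub : insert g (insert e {f}) ⊆ I := by
        intro z hz
        simp only [Finset.mem_insert, Finset.mem_singleton] at hz
        rcases hz with rfl | rfl | rfl
        · exact hg
        · exact heI
        · exact hfI
      have hle : ∑ z ∈ insert g (insert e {f}), x z ≤ ∑ z ∈ I, x z :=
        Finset.sum_le_sum_of_subset_of_nonneg hsub (fun z _ _ => hx0 z)
      rw [Finset.sum_insert (by simp [hne.1, hne.2]), Finset.sum_pair hef] at hle
      have hgF : g ∈ F := (Finset.mem_filter.mp hg).1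
      have := hpos g hgF
      linarith
    -- |A| = 4
    have hAlt : ¬ (S.card + 3 ≤ A.card) := fun h =>
      hnt S hSA hSodd (by rw [hScard]) h hcut1
    have hAeven : ¬ Odd A.card := by
      intro hodd
      have h := hxcut A (Finset.Subset.refl A) hodd
      have hempty : cut ends F A = ∅ := by
        ext g
        simp only [mem_cut', Finset.notMem_empty, iff_false, not_and]
        intro hg
        have := hWF g hg
        tauto
      rw [hempty, Finset.sum_empty] at h
      linarith
    have hAge : 3 ≤ A.card := by rw [← hScard]; exact Finset.card_le_card hSA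
    have hA4 : A.card ≤ 4 := by
      rw [hScard] at hAlt
      by_contra h5
      have h5' : A.card = 5 := by omega
      exact hAeven (by rw [h5']; decide)
    have hAS : (A \ S).card ≤ 1 := by
      rw [Finset.card_sdiff_of_subset hSA, hScard]; omega
    -- the two sides of the bipartition
    set P : Finset V := insert v (A \ S) with hP
    set Q : Finset V := insert u {w} with hQ
    have hPQ : A \ Q = P := by
      ext z
      simp only [hP, hQ, hS, Finset.mem_sdiff, Finset.mem_insert, Finset.mem_singleton]
      constructor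
      · rintro ⟨hzA, hz⟩
        by_cases hzv : z = v
        · left; exact hzv
        · right
          refine ⟨hzA, ?_⟩
          rintro (h | h | h)
          · exact hz (Or.inl h)
          · exact hzv h
          · exact hz (Or.inr h)
      · rintro (rfl | ⟨hzA, hz⟩)
        · refine ⟨hv, ?_⟩
          rintro (h | h)
          · exact hvu h
          · exact hvw h
        · refine ⟨hzA, ?_⟩
          rintro (h | h)
          · exact hz (Or.inl h)
          · exact hz (Or.inr (Or.inr h))
    have hcutPQ : cut ends F P = cut ends F Q := by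
      rw [← hPQ]
      ext g
      simp only [mem_cut', Finset.mem_sdiff]
      constructor
      · rintro ⟨hg, h | h⟩
        · have := (hWF g hg).2.1
          refine ⟨hg, Or.inr ⟨h.1.2, ?_⟩⟩
          by_contra h2
          exact h.2 ⟨this, h2⟩
        · have := (hWF g hg).1
          refine ⟨hg, Or.inl ⟨?_, h.2.2⟩⟩
          by_contra h2
          exact h.1 ⟨this, h2⟩
      · rintro ⟨hg, h | h⟩
        · exact ⟨hg, Or.inr ⟨fun h2 => h2.2 h.1, (hWF g hg).2.1, h.2⟩⟩
        · exact ⟨hg, Or.inl ⟨⟨(hWF g hg).1, h.1⟩, fun h2 => h2.2 h.2⟩⟩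
    -- no edge inside P
    have hIP : F.filter (fun g => (ends g).1 ∈ P ∧ (ends g).2 ∈ P) = ∅ := by
      rw [Finset.filter_eq_empty_iff]
      rintro g hg ⟨h1, h2⟩
      have hne := (hWF g hg).2.2
      have huP : u ∉ P := by
        simp only [hP, Finset.mem_insert, Finset.mem_sdiff, not_or, not_and, not_not]
        exact ⟨huv, fun _ => huS⟩
      have hwP : w ∉ P := by
        simp only [hP, Finset.mem_insert, Finset.mem_sdiff, not_or, not_and, not_not]
        exact ⟨hwv, fun _ => hwS⟩
      by_cases hgv : (ends g).1 = v ∨ (ends g).2 = v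
      · rcases hatv g hg hgv with rfl | rfl
        · rcases heu with ⟨_, h⟩ | ⟨h, _⟩
          · rw [h] at h2; exact huP h2
          · rw [h] at h1; exact huP h1
        · rcases hfw with ⟨_, h⟩ | ⟨h, _⟩
          · rw [h] at h2; exact hwP h2
          · rw [h] at h1; exact hwP h1
      · rw [not_or] at hgv
        have h1' : (ends g).1 ∈ A \ S := by
          rw [hP, Finset.mem_insert] at h1
          exact h1.resolve_left hgv.1
        have h2' : (ends g).2 ∈ A \ S := by
          rw [hP, Finset.mem_insert] at h2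
          exact h2.resolve_left hgv.2
        exact hne (Finset.card_le_one.mp hAS _ h1' _ h2')
    -- no edge inside Q
    have hIQ : F.filter (fun g => (ends g).1 ∈ Q ∧ (ends g).2 ∈ Q) = ∅ := by
      rw [Finset.filter_eq_empty_iff]
      rintro g hg ⟨h1, h2⟩
      have hQS : Q ⊆ S := by
        intro z hz
        simp only [hQ, Finset.mem_insert, Finset.mem_singleton] at hz
        rcases hz with rfl | rfl
        · exact huS
        · exact hwS
      have hvQ : v ∉ Q := by
        simp only [hQ, Finset.mem_insert, Finset.mem_singleton, not_or]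
        exact ⟨hvu, hvw⟩
      have hgI : g ∈ I := by
        rw [hI, Finset.mem_filter]; exact ⟨hg, hQS h1, hQS h2⟩
      rcases hIonly g hgI with rfl | rfl
      · rcases heu with ⟨h, _⟩ | ⟨_, h⟩
        · rw [h] at h1; exact hvQ h1
        · rw [h] at h2; exact hvQ h2
      · rcases hfw with ⟨h, _⟩ | ⟨_, h⟩
        · rw [h] at h1; exact hvQ h1
        · rw [h] at h2; exact hvQ h2
    -- a vector with star sum 1 at v and 0 elsewhere
    obtain ⟨h, _, hhstar⟩ := hsurj (fun z => if z = v then 1 else 0)
    have hPA : P ⊆ A := by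
      rw [← hPQ]; exact Finset.sdiff_subset
    have hQA : Q ⊆ A := by
      intro z hz
      simp only [hQ, Finset.mem_insert, Finset.mem_singleton] at hz
      rcases hz with rfl | rfl
      · exact huA
      · exact hwA
    have hsumP : ∑ s ∈ P, ∑ g ∈ star ends F s, h g = 1 := by
      rw [Finset.sum_congr rfl (fun s hs => hhstar s (hPA hs)), Finset.sum_ite_eq']
      simp [hP]
    have hsumQ : ∑ s ∈ Q, ∑ g ∈ star ends F s, h g = 0 := by
      rw [Finset.sum_congr rfl (fun s hs => hhstar s (hQA hs)), Finset.sum_ite_eq']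
      have hvQ : v ∉ Q := by
        simp only [hQ, Finset.mem_insert, Finset.mem_singleton, not_or]
        exact ⟨hvu, hvw⟩
      simp [hvQ]
    rw [sum_star_eq hWF h P, hIP, Finset.sum_empty, mul_zero, add_zero] at hsumP
    rw [sum_star_eq hWF h Q, hIQ, Finset.sum_empty, mul_zero, add_zero, ← hcutPQ] at hsumQ
    linarith

end Crest.Agent.Helper2.S0466
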