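/-
helper2 — S0466 squad (coordinator helper62), leaf PERT.
`pert`: a direction `h` vanishing where `x` vanishes and summing to zero over every tight odd
cut keeps `x + t • h` in Edmonds' polyhedron `QQ` for all small `t`.
Statement copied from `Crest/Agent/Helper62/S0466/Blueprint.lean`.
-/
import Crest.Agent.Helper62.S0466.Defs

set_option autoImplicit false

namespace Crest.Agent.Helper2.S0466

open Crest.Agent.Helper62.S0466

variable {V E : Type} [DecidableEq V] [DecidableEq E]

/-- Finitely many positive numbers have a common positive lower bound. -/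
private lemma exists_pos_le {ι : Type} (s : Finset ι) (f : ι → ℝ) (hf : ∀ i ∈ s, 0 < f i) :
    ∃ ε : ℝ, 0 < ε ∧ ∀ i ∈ s, ε ≤ f i := by
  classical
  induction s using Finset.induction_on with
  | empty => exact ⟨1, one_pos, by simp⟩
  | insert a s ha ih =>
    obtain ⟨ε, hε, hle⟩ := ih (fun i hi => hf i (Finset.mem_insert_of_mem hi))
    refine ⟨min ε (f a), lt_min hε (hf a (Finset.mem_insert_self a s)), ?_⟩
    intro i hi
    rcases Finset.mem_insert.mp hi with rfl | hi
    · exact min_le_right _ _
    · exact (min_le_left _ _).trans (hle i hi)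

omit [DecidableEq E] in
/-- In a well-formed graph the star of a vertex is the cut of the singleton. -/
theorem star_eq_cut_singleton {ends : E → V × V} {A : Finset V} {F : Finset E}
    (hWF : WF ends A F) (w : V) : star ends F w = cut ends F {w} := by
  unfold Crest.Agent.Helper62.S0466.star Crest.Agent.Helper62.S0466.cut
  apply Finset.filter_congr
  intro e he
  have hne := (hWF e he).2.2
  simp only [Finset.mem_singleton]
  constructor
  · rintro (h | h)
    · left; exact ⟨h, fun h2 => hne (h.trans h2.symm)⟩
    · right; exact ⟨fun h1 => hne (h1.trans h.symm), h⟩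
  · rintro (⟨h, _⟩ | ⟨_, h⟩)
    · left; exact h
    · right; exact h

/-- If `|t| < a / (|b| + 1)` with `a > 0` arbitrary real, then `0 ≤ a + t * b`
(indeed `|t * b| < a`). -/
private lemma small_step {t a b : ℝ} (ht : |t| < a / (|b| + 1)) : 0 ≤ a + t * b := by
  have hb : 0 < |b| + 1 := by positivity
  have h2 : |t| * (|b| + 1) < a := by rwa [lt_div_iff₀ hb] at ht
  have h3 : |t * b| ≤ |t| * (|b| + 1) := by
    rw [abs_mul]; nlinarith [abs_nonneg t, abs_nonneg b]
  have h4 := neg_abs_le (t * b)
  linarith

/-- Perturbation: a direction `h` vanishing where `x` vanishes and summing to zero over every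
tight odd cut keeps `x + t • h` in `QQ` for all small `t`. -/
theorem pert {ends : E → V × V} {A : Finset V} {F : Finset E} (hWF : WF ends A F)
    {x h : E → ℝ} (hx : x ∈ QQ ends A F) (h0 : ∀ e, x e = 0 → h e = 0)
    (hT : ∀ U : Finset V, U ⊆ A → Odd U.card → ∑ e ∈ cut ends F U, x e = 1 →
      ∑ e ∈ cut ends F U, h e = 0) :
    ∃ ε : ℝ, 0 < ε ∧ ∀ t : ℝ, |t| < ε → x + t • h ∈ QQ ends A F := by
  obtain ⟨hxF, hx0, hxstar, hxcut⟩ := hx
  -- a common bound for the positive coordinates
  obtain ⟨ε1, hε1, hle1⟩ := exists_pos_le F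
    (fun e => if 0 < x e then x e / (|h e| + 1) else 1) (by
      intro e _
      by_cases hpos : 0 < x e
      · simp only [if_pos hpos]; positivity
      · simp only [if_neg hpos]; exact one_pos)
  -- a common bound for the slack odd cuts
  obtain ⟨ε2, hε2, hle2⟩ := exists_pos_le A.powerset
    (fun U => if 1 < ∑ e ∈ cut ends F U, x e then
        ((∑ e ∈ cut ends F U, x e) - 1) / (|∑ e ∈ cut ends F U, h e| + 1) else 1) (by
      intro U _
      by_cases hpos : 1 < ∑ e ∈ cut ends F U, x e
      · simp only [if_pos hpos]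
        have : 0 < (∑ e ∈ cut ends F U, x e) - 1 := by linarith
        positivity
      · simp only [if_neg hpos]; exact one_pos)
  refine ⟨min ε1 ε2, lt_min hε1 hε2, ?_⟩
  intro t ht
  have ht1 : |t| < ε1 := lt_of_lt_of_le ht (min_le_left _ _)
  have ht2 : |t| < ε2 := lt_of_lt_of_le ht (min_le_right _ _)
  have hsumS : ∀ s : Finset E, ∑ e ∈ s, (x + t • h) e = ∑ e ∈ s, x e + t * ∑ e ∈ s, h e := by
    intro s
    simp [Finset.sum_add_distrib, Finset.mul_sum]
  refine ⟨?_, ?_, ?_, ?_⟩
  · intro e he
    simp [hxF e he, h0 e (hxF e he)]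
  · intro e
    show 0 ≤ x e + t • h e
    rw [smul_eq_mul]
    by_cases hpos : 0 < x e
    · by_cases heF : e ∈ F
      · have hb := hle1 e heF
        simp only [if_pos hpos] at hb
        exact small_step (lt_of_lt_of_le ht1 hb)
      · exact absurd (hxF e heF) (ne_of_gt hpos)
    · have hxe : x e = 0 := le_antisymm (not_lt.mp hpos) (hx0 e)
      simp [hxe, h0 e hxe]
  · intro w hw
    rw [hsumS, hxstar w hw]
    have hh : ∑ e ∈ star ends F w, h e = 0 := by
      rw [star_eq_cut_singleton hWF w]
      refine hT {w} (by simpa using hw) (by simp) ?_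
      rw [← star_eq_cut_singleton hWF w]; exact hxstar w hw
    rw [hh]; ring
  · intro U hU hodd
    rw [hsumS]
    have hge := hxcut U hU hodd
    rcases eq_or_lt_of_le hge with heq | hlt
    · rw [hT U hU hodd heq.symm, ← heq]; simp
    · have hb := hle2 U (Finset.mem_powerset.mpr hU)
      simp only [if_pos hlt] at hb
      have := small_step (lt_of_lt_of_le ht2 hb)
      linarith

end Crest.Agent.Helper2.S0466
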